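import Vale.Agent.P281.H125.TS.Stk
import Vale.Agent.P281.H64.TS.Spec

/-!
# P281, project T-S, blocks C1 and C2b (helper125)
-/

open Set Filter Metric MeasureTheory
open scoped Topology ContDiff ComplexConjugate ENNReal

noncomputable section

namespace Vale.Agent.P281.H125.TS

open Vale.Agent.P281.H64 (Cm)
open Vale.Agent.P281.H64.TK

variable {d : ℕ} {E Γ : Type} [TopologicalSpace E] [Group Γ] [MulAction Γ E]

theorem f1_of [Subsingleton Γ] {S : Sheets d E Γ} {β : Fin S.N → Cm d → TS.L1 d}
    (h : TS.F1On S univ β) : F1 S β where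
  smooth i z hz := (h.smooth i z hz (mem_univ _)).contDiffWithinAt
  change i j z hz w hw γ θ h1 h2 h3 := by
    ext v
    refine h.change i j z hz w hw (mem_univ _) θ ⟨?_, h2, ?_⟩ v
    · exact (h1.contDiffAt.restrict_scalars ℝ).of_le le_top
    · filter_upwards [h3] with u hu
      rw [Subsingleton.elim γ 1, one_smul] at hu
      exact hu

theorem f2_of [Subsingleton Γ] {S : Sheets d E Γ} {α : Fin S.N → Cm d → TS.L2 d}
    (h : TS.F2On S univ α) : F2 S α where
  smooth i z hz := (h.smooth i z hz (mem_univ _)).contDiffWithinAt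
  alt i z hz v := by
    have h1 := h.alt i z hz (mem_univ _) v v
    linear_combination h1 / 2
  change i j z hz w hw γ θ h1 h2 h3 := by
    ext u v
    refine h.change i j z hz w hw (mem_univ _) θ ⟨?_, h2, ?_⟩ u v
    · exact (h1.contDiffAt.restrict_scalars ℝ).of_le le_top
    · filter_upwards [h3] with u hu
      rw [Subsingleton.elim γ 1, one_smul] at hu
      exact hu

theorem isCl_of {S : Sheets d E Γ} {α : Fin S.N → Cm d → TS.L2 d}
    (h : Vale.Agent.P281.H64.TK.TS.Cl2 S α) : IsCl S α := by
  intro i z hz a b c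
  have hd : DifferentiableAt ℝ (α i) z :=
    (h.smooth i z hz (mem_univ _)).differentiableAt (by simp)
  have e1 : ∀ x y u, fderiv ℝ (fun w => α i w x y) z u = fderiv ℝ (α i) z u x y := by
    intro x y u
    have h1 := (hd.hasFDerivAt.clm_apply (hasFDerivAt_const x z)).clm_apply
      (hasFDerivAt_const y z)
    rw [h1.fderiv]
    simp
  have e2 : fderiv ℝ (fun w => α i w a c) z b = -fderiv ℝ (fun w => α i w c a) z b := by
    have h1 : (fun w => α i w a c) =ᶠ[𝓝 z] fun w => -α i w c a := by
      filter_upwards [isOpen_ball.mem_nhds hz] with w hw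
      exact h.alt i w hw (mem_univ _) a c
    rw [h1.fderiv_eq, fderiv_fun_neg]
    rfl
  rw [e2, e1, e1, e1]
  have := h.closed i z hz a b c
  linear_combination this

/-- **T-S, block C1.** -/
theorem c1 : TS.StokesStmt := by
  intro E Γ _ _ _ _ _ _ S α β hα hβ
  exact stokes S (f1_of hβ) (f2_of hα.toF2On) (isCl_of hα) TS.rb2

/-- **T-S, block C2b.** -/
theorem c2b : TS.WdStmt := by
  intro L a b a' b' ha' hb' ha hb
  have e1 : a = pull L a' := by
    ext u v
    exact ha u v
  have e2 : b = pull L b' := by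
    ext u v
    exact hb u v
  have h1 : ∀ v, a' v v = 0 := fun v => by linear_combination (ha' v v) / 2
  have h2 : ∀ v, b' v v = 0 := fun v => by linear_combination (hb' v v) / 2
  have h3 := wdg_pull L h1 h2 TS.rb2
  rw [← e1, ← e2, Complex.real_smul, mul_comm] at h3
  exact h3

end Vale.Agent.P281.H125.TS
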