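import Vale.Agent.P281.H125.TS.Stk
import Vale.Agent.P281.H64.TS.Spec

/-!
# P281, project T-S, block C2a (helper125): change of variables along a diffeomorphism
-/

open Set Filter Metric MeasureTheory
open scoped Topology ContDiff ComplexConjugate ENNReal

noncomputable section

namespace Vale.Agent.P281.H125.TS

open Vale.Agent.P281.H64 (Cm)
open Vale.Agent.P281.H64.TK Vale.Agent.P281.H303.K

variable {d : ℕ} {E Γ : Type} [TopologicalSpace E] [Group Γ] [MulAction Γ E]
  {E' Γ' : Type} [TopologicalSpace E'] [Group Γ'] [MulAction Γ' E']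

theorem one_of [Subsingleton Γ] (γ : Γ) (e : E) : γ • e = e := by
  rw [Subsingleton.elim γ 1, one_smul]

/-- the sheets transported by a homeomorphism -/
def tra [Subsingleton Γ] [Subsingleton Γ'] (S' : Sheets d E' Γ') (τ : E ≃ₜ E') :
    Sheets d E Γ where
  N := S'.N
  σ i z := τ.symm (S'.σ i z)
  map_nhds i z hz := by
    have h1 : (fun z => τ.symm (S'.σ i z)) = τ.symm ∘ S'.σ i := rfl
    rw [h1, ← Filter.map_map, S'.map_nhds i z hz]
    exact τ.symm.map_nhds_eq _
  inj i z hz w hw γ h := by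
    rw [one_of γ] at h
    refine ⟨Subsingleton.elim _ _, (S'.inj i z hz w hw 1 ?_).2⟩
    rw [one_smul]
    exact τ.symm.injective h
  cover e := by
    obtain ⟨γ, i, z, hz, he⟩ := S'.cover (τ e)
    refine ⟨1, i, z, hz, ?_⟩
    rw [one_of γ] at he
    rw [one_smul, he, Homeomorph.symm_apply_apply]
  closed i r hr := by
    have h1 : {e : E | ∃ (γ : Γ) (z : Cm d), ‖z‖ ≤ r ∧ γ • τ.symm (S'.σ i z) = e} =
        τ ⁻¹' {e : E' | ∃ (γ : Γ') (z : Cm d), ‖z‖ ≤ r ∧ γ • S'.σ i z = e} := by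
      ext e
      constructor
      · rintro ⟨γ, z, hz, he⟩
        refine ⟨1, z, hz, ?_⟩
        rw [one_of γ] at he
        rw [one_smul, ← he, Homeomorph.apply_symm_apply]
      · rintro ⟨γ, z, hz, he⟩
        refine ⟨1, z, hz, ?_⟩
        rw [one_of γ] at he
        rw [one_smul, he, Homeomorph.symm_apply_apply]
    rw [h1]
    exact (S'.closed i r hr).preimage τ.continuous
  hol i j z hz w hw γ h := by
    rw [one_of γ] at h
    obtain ⟨θ, a1, a2, a3⟩ := S'.hol i j z hz w hw 1 (by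
      rw [one_smul]
      exact τ.symm.injective h)
    refine ⟨θ, a1, a2, ?_⟩
    filter_upwards [a3] with u hu
    rw [one_of γ, hu, one_smul]

theorem P_tra [Subsingleton Γ] [Subsingleton Γ'] (S' : Sheets d E' Γ') (τ : E ≃ₜ E')
    (j : Fin S'.N) : (tra (Γ := Γ) S' τ).P j = S'.P j := by
  ext z
  constructor
  · rintro ⟨h1, h2⟩
    refine ⟨h1, fun i hi γ w hw he => h2 i hi 1 w hw ?_⟩
    rw [one_of γ] at he
    rw [one_smul]
    show τ.symm (S'.σ i w) = τ.symm (S'.σ j z)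
    rw [he]
  · rintro ⟨h1, h2⟩
    refine ⟨h1, fun i hi γ w hw he => h2 i hi 1 w hw ?_⟩
    rw [one_of γ] at he
    rw [one_smul]
    exact τ.symm.injective he

/-- **T-S, block C2a.** -/
theorem c2a : TS.IntInvStmt := by
  intro d E Γ _ _ _ _ _ _ S E' Γ' _ _ _ _ _ _ S' τ D D' hd hτ hD hD' hc
  have hcomp : Compat S (tra (Γ := Γ) S' τ) := by
    intro i j z hz w hw γ he
    rw [one_of γ] at he
    have he' : τ (S.σ i z) = S'.σ j w := by
      rw [he]
      exact τ.apply_symm_apply _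
    obtain ⟨ψ, ⟨h1, h2, h3⟩, h4⟩ := hτ i j z hz w hw he'
    refine ⟨ψ, h1, h2, h4, ?_⟩
    filter_upwards [h3] with u hu
    rw [one_of γ]
    show S.σ i u = τ.symm (S'.σ j (ψ u))
    rw [← hu, Homeomorph.symm_apply_apply]
  have h1 := int_compat hcomp (D := D) (D' := D') (fun i => integrableOn_P S i (hD i))
    (fun i => integrableOn_P (tra (Γ := Γ) S' τ) i (hD' i)) ?_
  · unfold Sheets.int
    rw [h1]
    show ∑ i : Fin S'.N, ∫ z in (tra (Γ := Γ) S' τ).P i, D' i z = ∑ i, ∫ z in S'.P i, D' i z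
    exact Finset.sum_congr rfl fun i _ => by rw [← P_tra (Γ := Γ) S' τ i]
  · intro i j z hz w hw γ ψ he hψ hψz hdet hev
    rw [one_of γ] at he
    have he' : τ (S.σ i z) = S'.σ j w := by
      rw [he]
      exact τ.apply_symm_apply _
    obtain ⟨φ, ⟨b1, b2, b3⟩, b4⟩ := hτ i j z hz w hw he'
    -- the two transition maps agree
    have c1 : ∀ᶠ u in 𝓝 z, ψ u ∈ ball (0 : Cm d) 3 :=
      hψ.continuousAt.eventually (isOpen_ball.mem_nhds (by rwa [hψz]))
    have c2 : ∀ᶠ u in 𝓝 z, φ u ∈ ball (0 : Cm d) 3 :=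
      b1.continuousAt.eventually (isOpen_ball.mem_nhds (by rwa [b2]))
    have e1 : ψ =ᶠ[𝓝 z] φ := by
      filter_upwards [hev, b3, c1, c2] with u u1 u2 u3 u4
      rw [one_of γ] at u1
      have u5 : τ (S.σ i u) = S'.σ j (ψ u) := by
        rw [u1]
        exact τ.apply_symm_apply _
      refine (S'.inj j (ψ u) u3 (φ u) u4 1 ?_).2
      rw [one_smul, ← u5, u2]
    rw [hc i j z hz w hw φ ⟨b1, b2, b3⟩, e1.fderiv_eq, Complex.real_smul, mul_comm]

end Vale.Agent.P281.H125.TS
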