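import Vale.Agent.P281.H303.K.J

/-!
# P281, project T-S, block C1 (helper125): forms of top degree supported in one sheet
-/

open Set Filter Metric MeasureTheory
open scoped Topology ContDiff ComplexConjugate ENNReal

noncomputable section

namespace Vale.Agent.P281.H125.TS

open Vale.Agent.P281.H64 (Cm)
open Vale.Agent.P281.H64.TK Vale.Agent.P281.H303.K

variable {d : ℕ} {E Γ : Type} [TopologicalSpace E] [Group Γ] [MulAction Γ E]
  {F : Type} [NormedAddCommGroup F] [NormedSpace ℝ F]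

/-- The densities `D i` define a form of top degree on `E / Γ`. -/
def IsTop (S : Sheets d E Γ) (D : Fin S.N → Cm d → F) : Prop :=
  ∀ i j, ∀ z ∈ ball (0 : Cm d) 3, ∀ w ∈ ball (0 : Cm d) 3, ∀ (γ : Γ) (θ : Cm d → Cm d),
    AnalyticAt ℂ θ z → θ z = w → (∀ᶠ u in 𝓝 z, S.σ i u = γ • S.σ j (θ u)) →
      D i z = (fderiv ℝ θ z).det • D j w

/-- a change of coordinates is holomorphic -/
theorem change_ev {S : Sheets d E Γ} {i j : Fin S.N} {z w : Cm d} (hz : z ∈ ball (0 : Cm d) 3)
    (hw : w ∈ ball (0 : Cm d) 3) {γ : Γ} {ψ : Cm d → Cm d} (he : S.σ i z = γ • S.σ j w)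
    (hc : ContinuousAt ψ z) (h1 : ψ z = w) (h2 : ∀ᶠ u in 𝓝 z, S.σ i u = γ • S.σ j (ψ u)) :
    ∃ θ : Cm d → Cm d, AnalyticAt ℂ θ z ∧ θ z = w ∧ (∀ᶠ u in 𝓝 z, S.σ i u = γ • S.σ j (θ u)) ∧
      ψ =ᶠ[𝓝 z] θ := by
  obtain ⟨θ, a1, a2, a3⟩ := S.hol i j z hz w hw γ he
  refine ⟨θ, a1, a2, a3, ?_⟩
  have b1 : ∀ᶠ u in 𝓝 z, θ u ∈ ball (0 : Cm d) 3 :=
    a1.continuousAt.eventually (isOpen_ball.mem_nhds (by rwa [a2]))
  have b2 : ∀ᶠ u in 𝓝 z, ψ u ∈ ball (0 : Cm d) 3 :=
    hc.eventually (isOpen_ball.mem_nhds (by rwa [h1]))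
  filter_upwards [h2, a3, b1, b2] with u c1 c2 c3 c4
  have := c1.symm.trans c2
  exact (uniq (S := S) (i := j) c4 c3 this).2

variable [ContinuousConstSMul Γ E]

theorem IsTop.change {S : Sheets d E Γ} {D : Fin S.N → Cm d → F} (h : IsTop S D) {i j : Fin S.N}
    {z w : Cm d} (hz : z ∈ ball (0 : Cm d) 3) (hw : w ∈ ball (0 : Cm d) 3) {γ : Γ}
    {ψ : Cm d → Cm d} (he : S.σ i z = γ • S.σ j w) (hc : ContinuousAt ψ z) (h1 : ψ z = w)
    (h2 : ∀ᶠ u in 𝓝 z, S.σ i u = γ • S.σ j (ψ u)) : D i z = (fderiv ℝ ψ z).det • D j w := by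
  obtain ⟨θ, a1, a2, a3, a4⟩ := change_ev hz hw he hc h1 h2
  rw [a4.fderiv_eq]
  exact h i j z hz w hw γ θ a1 a2 a3

/-- **A form with support in one sheet.** -/
theorem int_sheet (S : Sheets d E Γ) {D : Fin S.N → Cm d → F} (hD : IsTop S D)
    (hc : ∀ i, ContinuousOn (D i) (ball 0 3)) (i : Fin S.N)
    (h0 : ∀ j, ∀ z ∈ ball (0 : Cm d) 3, S.σ j z ∉ V S i (closedBall 0 2) → D j z = 0) :
    ∑ j, ∫ z in S.P j, D j z = ∫ z in ball (0 : Cm d) 3, D i z := by
  have hV2 : ∀ z ∈ ball (0 : Cm d) 3, z ∉ closedBall (0 : Cm d) 2 →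
      S.σ i z ∉ V S i (closedBall 0 2) := by
    intro z hz hz2 h
    rw [co_mem (closedBall_subset_ball (by norm_num))] at h
    have h3 : co S i (S.σ i z) = z := co_eq (γ := 1) hz (one_smul _ _)
    rw [h3] at h
    exact hz2 h.2
  have h3 := int_family (S := S) (M := 1) (q := fun _ => S.σ i) (A := fun _ => ball 0 3)
    (fun _ => nice_self S i) (fun k l hkl => absurd (Subsingleton.elim k l) hkl)
    (D := D) (g := fun _ => D i)
    (fun j => integrableOn_P S j (hc j)) (fun _ => ?_) ?_ ?_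
  · rw [← h3]
    simp
  · have a1 : IntegrableOn (D i) (closedBall 0 2) :=
      ((hc i).mono (closedBall_subset_ball (by norm_num))).integrableOn_compact
        (isCompact_closedBall _ _)
    refine a1.of_forall_diff_eq_zero isOpen_ball.measurableSet ?_
    rintro z ⟨hz, hz'⟩
    exact h0 i z hz (hV2 z hz hz')
  · rintro _ j z ⟨hz, γ, w, hw, he⟩
    have hw3 := P_subset3 S j hw
    have h1 := (nice_self S i).eventually hz j hw3 he.symm
    unfold jd
    rw [abs_of_nonneg h1.2.1, co_eq hw3 he]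
    exact hD.change hz hw3 he.symm h1.1.continuousAt (co_eq hw3 he)
      (h1.2.2.mono fun u hu => hu.2)
  · intro j z hz hne
    by_contra hcon
    push Not at hcon
    apply hne
    refine h0 j z (P_subset3 S j hz) ?_
    rintro ⟨γ, w, hw, he⟩
    exact hcon 0 γ w (closedBall_subset_ball (by norm_num) hw) he

/-! ### the local theorem -/

/-- integral of a derivative of a function with compact support -/
theorem int_fderiv_zero {V : Type} [NormedAddCommGroup V] [NormedSpace ℝ V] [MeasurableSpace V]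
    [BorelSpace V] [FiniteDimensional ℝ V] {μ : Measure V} [μ.IsAddHaarMeasure]
    {u : V → F} (hu : ContDiff ℝ 1 u) (hc : HasCompactSupport u) (w : V) :
    Integrable (fun x => fderiv ℝ u x w) μ ∧ ∫ x, fderiv ℝ u x w ∂μ = 0 := by
  have h1 : Continuous (fun x => fderiv ℝ u x w) :=
    ((hu.continuous_fderiv (by simp)).clm_apply continuous_const)
  have h2 : HasCompactSupport (fun x => fderiv ℝ u x w) :=
    (hc.fderiv (𝕜 := ℝ)).mono' (fun x hx => by
      apply subset_tsupport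
      intro h0
      apply hx
      simp [h0])
  refine ⟨h1.integrable_of_hasCompactSupport h2, ?_⟩
  have key := integral_bilinear_hasLineDerivAt_right_eq_neg_left_of_integrable
    (μ := μ) (f := fun _ => (1 : ℝ)) (f' := fun _ => (0 : ℝ))
    (g := u) (g' := fun x => fderiv ℝ u x w) (v := w) (B := ContinuousLinearMap.lsmul ℝ ℝ)
    (by simp) (by simpa using h1.integrable_of_hasCompactSupport h2)
    (by simpa using hu.continuous.integrable_of_hasCompactSupport hc)
    (fun x _ => by simpa using (hasFDerivAt_const (1 : ℝ) x).hasLineDerivAt w)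
    (fun x _ => (hu.differentiable (by simp) x).hasFDerivAt.hasLineDerivAt w)
  simpa using key

theorem int_fderiv_ball {X : Cm d → F} (hX : ContDiffOn ℝ ∞ X (ball 0 3))
    (h0 : ∀ z ∈ ball (0 : Cm d) 3, z ∉ closedBall (0 : Cm d) 2 → X z = 0) (v : Cm d) :
    IntegrableOn (fun z => fderiv ℝ X z v) (ball 0 3) ∧
      ∫ z in ball (0 : Cm d) 3, fderiv ℝ X z v = 0 := by
  classical
  have hat : ∀ x ∈ ball (0 : Cm d) 3, ContDiffAt ℝ ∞ X x :=
    fun x hx => hX.contDiffAt (isOpen_ball.mem_nhds hx)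
  have h23 : closedBall (0 : Cm d) 2 ⊆ ball 0 3 := closedBall_subset_ball (by norm_num)
  set G : Cm d → F := (closedBall (0 : Cm d) 2).indicator X with hG
  have hGU : ∀ x ∈ ball (0 : Cm d) 3, G =ᶠ[𝓝 x] X := by
    intro x hx
    filter_upwards [isOpen_ball.mem_nhds hx] with y hy
    by_cases hyK : y ∈ closedBall (0 : Cm d) 2
    · simp only [hG, indicator_of_mem hyK]
    · simp only [hG, indicator_of_notMem hyK, h0 y hy hyK]
  have hG0 : ∀ x ∉ closedBall (0 : Cm d) 2, G =ᶠ[𝓝 x] fun _ => 0 := by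
    intro x hx
    filter_upwards [isClosed_closedBall.isOpen_compl.mem_nhds hx] with y hy
    exact indicator_of_notMem hy _
  have hsm : ContDiff ℝ 1 G := by
    rw [contDiff_iff_contDiffAt]
    intro x
    by_cases hx : x ∈ closedBall (0 : Cm d) 2
    · exact ((hat x (h23 hx)).of_le (by exact_mod_cast le_top)).congr_of_eventuallyEq
        (hGU x (h23 hx))
    · exact contDiffAt_const.congr_of_eventuallyEq (hG0 x hx)
  have hcs : HasCompactSupport G :=
    HasCompactSupport.of_support_subset_isCompact (isCompact_closedBall _ _)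
      support_indicator_subset
  obtain ⟨i1, i2⟩ := int_fderiv_zero (μ := (volume : Measure (Cm d))) hsm hcs v
  have e1 : ∀ z ∈ ball (0 : Cm d) 3, fderiv ℝ X z v = fderiv ℝ G z v := fun z hz => by
    rw [(hGU z hz).fderiv_eq]
  refine ⟨(i1.integrableOn (s := ball (0 : Cm d) 3)).congr_fun (fun z hz => (e1 z hz).symm)
    isOpen_ball.measurableSet, ?_⟩
  rw [setIntegral_congr_fun isOpen_ball.measurableSet e1, ← i2]
  refine setIntegral_eq_integral_of_forall_compl_eq_zero fun z hz => ?_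
  rw [(hG0 z fun h => hz (h23 h)).fderiv_eq]
  simp

end Vale.Agent.P281.H125.TS
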