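import Vale.Agent.P281.H125.KH.Main
import Vale.Agent.P284.H958.V9

/-!
# P281, project T-S (helper125): Poincaré inequality and Poisson approximation on a compact
Kähler manifold (pieces `Coc`, finite group)
-/

open scoped Manifold ContDiff Topology Pointwise ComplexConjugate ComplexOrder
open Filter Set Metric MeasureTheory

noncomputable section

namespace Vale.Agent.P281.H125.TS

open Vale.Agent.P272.K Vale.Agent.P284.H248 Vale.Agent.P284.H894
  Vale.Agent.P284.H894.V Vale.Agent.P284.H639.V Vale.Agent.P281.H125.KH Vale.Agent.P284.H958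

variable {n : ℕ} {Γ : Type} [Group Γ] [Finite Γ] {C : Coc n Γ}

theorem hP : VPStmt := Vale.Agent.P284.H730.V.vpStmt
theorem h1 : V1Stmt := Vale.Agent.P284.H119.V.v1Stmt
theorem h2 : V2Stmt := Vale.Agent.P284.H66.v2Stmt
theorem h3 : V3Stmt := Vale.Agent.P284.H913.V.v3Stmt
theorem h5 : V5Concl := v5Stmt h1 h2 hP h3
theorem h7 : V7Concl := Vale.Agent.P284.H446.V.v7Stmt hP h3 Vale.Agent.P284.H66.v4Stmt h5
    Vale.Agent.P284.H359.V.v6Stmt

theorem en_nonneg (P : PU C) (K : KM C) {v : Γ → C.I → Cm n → ℝ} (hv : IsTst C v) :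
    0 ≤ Int P K (Gr K v v) :=
  Asm.Int_nonneg h3 P K (h5.fam C K v v hv hv).2.1 fun γ a z hz =>
    (hP.nonneg _ _ _ ((K.ku a).pos z (V_sub_Ω C a hz))).1

theorem cont_tst {v : Γ → C.I → Cm n → ℝ} (hv : IsTst C v) (γ : Γ) (a : C.I) :
    ContinuousOn (v γ a) (C.Ω a) := fun z hz =>
  (hv.smooth γ a z hz).continuousAt.continuousWithinAt

theorem c2 (C : Coc n Γ) (a : C.I) : closedBall (C.c a) (2 * C.r a) ⊆ C.Ω a :=
  (cball2_sub_V C a).trans (V_sub_Ω C a)

/-- constants on the pieces -/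
theorem exists_loc (P : PU C) (K : KM C) : ∃ A : ℝ, 0 ≤ A ∧ ∀ v, IsTst C v →
    ∃ m : Γ → C.I → ℝ, ∀ γ a, ∫ z in ball (C.c a) (2 * C.r a), (v γ a z - m γ a) ^ 2 ≤
      A * Int P K (Gr K v v) := by
  classical
  choose A hA0 hA using fun a : C.I => poinc Vale.Agent.P284.H513.V.v11Stmt n (C.r a) (C.r_pos a)
  have hLl : 0 ≤ K.Lam / K.lam :=
    div_nonneg (Vale.Agent.P284.H287.V.Lam_pos K).le K.lam_pos.le
  refine ⟨(∑ a, A a) * (K.Lam / K.lam), mul_nonneg (Finset.sum_nonneg fun a _ => hA0 a) hLl,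
    fun v hv => ?_⟩
  choose m hm using fun (γ : Γ) (a : C.I) => hA a (C.c a) (v γ a)
    fun z hz => hv.smooth γ a z (C.cV_sub a hz)
  refine ⟨m, fun γ a => (hm γ a).trans ?_⟩
  have e1 := d1_bound hP h3 P K (mv_of_tst hv) γ a
  have e2 : A a ≤ ∑ a, A a := Finset.single_le_sum (fun a _ => hA0 a) (Finset.mem_univ a)
  have e3 := en_nonneg P K hv
  calc A a * ∫ z in C.V a, D1 (v γ a) z ≤ A a * (K.Lam / K.lam * Int P K (Gr K v v)) :=
        mul_le_mul_of_nonneg_left e1 (hA0 a)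
    _ ≤ (∑ a, A a) * (K.Lam / K.lam * Int P K (Gr K v v)) :=
        mul_le_mul_of_nonneg_right e2 (mul_nonneg hLl e3)
    _ = _ := by ring

/-- one constant for all the pieces -/
theorem exists_cst (P : PU C) (K : KM C) : ∃ A : ℝ, 0 ≤ A ∧ ∀ v, IsTst C v →
    ∃ m : ℝ, ∀ γ a, ∫ z in ball (C.c a) (2 * C.r a), (v γ a z - m) ^ 2 ≤
      A * Int P K (Gr K v v) := by
  classical
  have := Fintype.ofFinite Γ
  obtain ⟨A, hA0, hA⟩ := exists_loc P K
  choose m hm using hA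
  obtain ⟨a₀⟩ := C.ne
  have key : ∀ γ' b, ∃ B : ℝ, 0 ≤ B ∧ ∀ v (hv : IsTst C v),
      (m v hv 1 a₀ - m v hv γ' b) ^ 2 ≤ B * Int P K (Gr K v v) := by
    intro γ' b
    refine v12Stmt n Γ C (fun γ' b => ∃ B : ℝ, 0 ≤ B ∧ ∀ v (hv : IsTst C v),
      (m v hv 1 a₀ - m v hv γ' b) ^ 2 ≤ B * Int P K (Gr K v v)) ?_ 1 a₀ γ' b
      ⟨0, le_rfl, fun v hv => by simp⟩
    rintro γ a b z hz h1 h2 ⟨B, hB0, hB⟩
    obtain ⟨A', hA'0, hA'⟩ := overlap C a b z hz h1 h2
    refine ⟨2 * B + 2 * (A' * (A + A)), by positivity, fun v hv => ?_⟩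
    have e1 := hA' (v γ a) (v (γ * C.κ a b z) b) (m v hv γ a) (m v hv (γ * C.κ a b z) b)
      ((cont_tst hv γ a).mono (c2 C a)) ((cont_tst hv _ b).mono (c2 C b)) fun y hy hκ => by
        rw [hv.compat γ a b y hy, hκ]
    have e2 := hm v hv γ a
    have e3 := hm v hv (γ * C.κ a b z) b
    have e4 := hB v hv
    have e5 := mul_le_mul_of_nonneg_left (add_le_add e2 e3) hA'0
    nlinarith [sq_nonneg (m v hv 1 a₀ - m v hv γ a - (m v hv γ a - m v hv (γ * C.κ a b z) b))]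
  choose B hB0 hB using key
  set S : ℝ := ∑ γ : Γ, ∑ a, B γ a with hS
  have hS0 : 0 ≤ S := Finset.sum_nonneg fun γ _ => Finset.sum_nonneg fun a _ => hB0 γ a
  have hBS : ∀ γ a, B γ a ≤ S := fun γ a =>
    (Finset.single_le_sum (fun a _ => hB0 γ a) (Finset.mem_univ a)).trans
      (Finset.single_le_sum (f := fun γ => ∑ a, B γ a)
        (fun γ _ => Finset.sum_nonneg fun a _ => hB0 γ a) (Finset.mem_univ γ))
  set V : ℝ := ∑ a, (volume (ball (C.c a) (2 * C.r a))).toReal with hV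
  have hV0 : ∀ a, 0 ≤ (volume (ball (C.c a) (2 * C.r a))).toReal := fun a => ENNReal.toReal_nonneg
  have hVS : ∀ a, (volume (ball (C.c a) (2 * C.r a))).toReal ≤ V := fun a =>
    Finset.single_le_sum (fun a _ => hV0 a) (Finset.mem_univ a)
  have hV' : 0 ≤ V := Finset.sum_nonneg fun a _ => hV0 a
  refine ⟨2 * A + 2 * (V * S), by positivity, fun v hv => ⟨m v hv 1 a₀, fun γ a => ?_⟩⟩
  have hint : ∀ t : ℝ, IntegrableOn (fun z => (v γ a z - t) ^ 2) (ball (C.c a) (2 * C.r a)) :=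
    fun t => integrableOn_cball ((((cont_tst hv γ a).mono (c2 C a)).sub continuousOn_const).pow 2)
  have h5 : ∫ z in ball (C.c a) (2 * C.r a), (v γ a z - m v hv 1 a₀) ^ 2 ≤
      ∫ z in ball (C.c a) (2 * C.r a), (2 * (v γ a z - m v hv γ a) ^ 2 +
        2 * (m v hv 1 a₀ - m v hv γ a) ^ 2) := by
    refine setIntegral_mono_on (hint _)
      (((hint _).const_mul 2).add (integrableOn_const measure_ball_lt_top.ne))
      measurableSet_ball fun z _ => ?_
    nlinarith [sq_nonneg (v γ a z - m v hv γ a + (m v hv 1 a₀ - m v hv γ a))]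
  rw [integral_add ((hint _).const_mul 2) (integrableOn_const measure_ball_lt_top.ne),
      integral_const_mul, setIntegral_const, measureReal_def, smul_eq_mul] at h5
  have e1 := hm v hv γ a
  have e2 := hB γ a v hv
  have e3 := en_nonneg P K hv
  have e4 : (m v hv 1 a₀ - m v hv γ a) ^ 2 ≤ S * Int P K (Gr K v v) :=
    e2.trans (mul_le_mul_of_nonneg_right (hBS γ a) e3)
  have e5 : (volume (ball (C.c a) (2 * C.r a))).toReal * (m v hv 1 a₀ - m v hv γ a) ^ 2 ≤
      V * (S * Int P K (Gr K v v)) :=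
    mul_le_mul (hVS a) e4 (sq_nonneg _) hV'
  linarith

/-- constants as test functions -/
def cst (C : Coc n Γ) (m : ℝ) : Γ → C.I → Cm n → ℝ := fun _ a => (C.Ω a).indicator fun _ => m

omit [Finite Γ] in
theorem cst_mem (m : ℝ) (γ : Γ) {a : C.I} {z : Cm n} (hz : z ∈ C.Ω a) : cst C m γ a z = m :=
  indicator_of_mem hz _

theorem isTst_cst (C : Coc n Γ) (m : ℝ) : IsTst C (cst C m) where
  smooth γ a z hz := by
    refine (contDiffAt_const (c := m)).congr_of_eventuallyEq ?_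
    filter_upwards [(show IsOpen (C.Ω a) from isOpen_ball).mem_nhds hz] with y hy
    exact cst_mem m γ hy
  compat γ a b z hz := by
    rw [cst_mem m γ (O_sub_Ω C hz), cst_mem m _ (T_mem_Ω C hz)]
  fin := Set.toFinite _
  out γ a z hz := indicator_of_notMem hz _

/-- **Poincaré inequality**, with a constant. -/
theorem poincare (P : PU C) (K : KM C) : ∃ B : ℝ, 0 ≤ B ∧ ∀ v, IsTst C v → ∃ m : ℝ,
    Int P K (fun γ a z => (v γ a z - m) ^ 2) ≤ B * Int P K (Gr K v v) := by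
  classical
  have := Fintype.ofFinite Γ
  obtain ⟨A, hA0, hA⟩ := exists_cst P K
  have hLam := Vale.Agent.P284.H287.V.Lam_pos K
  refine ⟨Fintype.card C.I * ∑ _γ : Γ, ∑ _a : C.I, K.Lam * A, by positivity, fun v hv => ?_⟩
  obtain ⟨m, hm⟩ := hA v hv
  refine ⟨m, ?_⟩
  have hF : Fam C (fun γ a z => (v γ a z - m) ^ 2) :=
    fam_of (fun γ a z hz => ((hv.smooth γ a z hz).sub contDiffAt_const).pow 2)
      fun γ a b z hz => by rw [hv.compat γ a b z hz]
  refine (h3.ge C P K _ hF fun γ a z _ => sq_nonneg _).trans ?_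
  rw [tsum_fintype, mul_assoc]
  refine mul_le_mul_of_nonneg_left ?_ (Nat.cast_nonneg _)
  rw [Finset.sum_mul]
  refine Finset.sum_le_sum fun γ _ => ?_
  rw [Finset.sum_mul]
  refine Finset.sum_le_sum fun a _ => ?_
  have hW2 : C.W a ⊆ ball (C.c a) (2 * C.r a) := ball_subset_ball (by linarith [C.r_pos a])
  have i2 : IntegrableOn (fun z => (v γ a z - m) ^ 2) (ball (C.c a) (2 * C.r a)) :=
    integrableOn_cball ((((cont_tst hv γ a).mono (c2 C a)).sub continuousOn_const).pow 2)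
  have i3 : IntegrableOn (fun z => (v γ a z - m) ^ 2 * vol (K.w a) z)
      (ball (C.c a) (2 * C.r a)) :=
    integrableOn_cball (((((cont_tst hv γ a).mono (c2 C a)).sub continuousOn_const).pow 2).mul
      ((det_cont K a).mono (c2 C a)))
  calc ∫ z in C.W a, (v γ a z - m) ^ 2 * vol (K.w a) z
      ≤ ∫ z in C.W a, K.Lam * (v γ a z - m) ^ 2 := by
        refine setIntegral_mono_on (i3.mono_set hW2)
          ((i2.mono_set hW2).const_mul _) measurableSet_ball fun z hz => ?_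
        rw [mul_comm]
        exact mul_le_mul_of_nonneg_right (K.vol_up a z (c2 C a (ball_subset_closedBall (hW2 hz))))
          (sq_nonneg _)
    _ = K.Lam * ∫ z in C.W a, (v γ a z - m) ^ 2 := integral_const_mul _ _
    _ ≤ K.Lam * ∫ z in ball (C.c a) (2 * C.r a), (v γ a z - m) ^ 2 := by
        refine mul_le_mul_of_nonneg_left ?_ hLam.le
        exact setIntegral_mono_set i2 (Eventually.of_forall fun z => sq_nonneg _)
          (LE.le.eventuallyLE hW2)
    _ ≤ K.Lam * (A * Int P K (Gr K v v)) := mul_le_mul_of_nonneg_left (hm γ a) hLam.le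
    _ = _ := by ring

/-- **Poisson approximation** (Hodge theorem in degree 0, in the sense of density). -/
theorem poisson (P : PU C) (K : KM C) {h : Γ → C.I → Cm n → ℝ} (hh : IsTst C h)
    (h0 : Int P K h = 0) {ε : ℝ} (hε : 0 < ε) :
    ∃ u, IsTst C u ∧ Int P K (fun γ a z => (h γ a z - Lap K u γ a z) ^ 2) < ε := by
  set ip := Asm.ipF h3 h5 P K with hipd
  set en := Asm.enF hP h3 h5 P K with hend
  set L := Asm.lapF h5 K with hLd
  have hip : ∀ f h : Asm.tst C, ip f h = Int P K fun γ a z =>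
      (f : Γ → C.I → Cm n → ℝ) γ a z * (h : Γ → C.I → Cm n → ℝ) γ a z := fun _ _ => rfl
  have hen : ∀ f h : Asm.tst C, en f h = Int P K (Gr K (f : Γ → C.I → Cm n → ℝ) h) :=
    fun _ _ => rfl
  have hL : ∀ f : Asm.tst C, ((L f : Asm.tst C) : Γ → C.I → Cm n → ℝ) = Lap K f := fun _ => rfl
  have hsq : ∀ f : Asm.tst C, ip f f = Int P K fun γ a z =>
      (f : Γ → C.I → Cm n → ℝ) γ a z ^ 2 := by
    intro f
    rw [hip]
    exact Asm.Int_congr P K fun γ a z _ => (sq _).symm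
  have hs : ∀ f h : Asm.tst C, ip f h = ip h f := by
    intro f h
    rw [hip, hip]
    exact Asm.Int_congr P K fun γ a z _ => mul_comm _ _
  have hp : ∀ f : Asm.tst C, 0 ≤ ip f f := by
    intro f
    rw [hip]
    exact Asm.Int_nonneg h3 P K (h5.fam C K f f f.2 f.2).1 fun γ a z _ => mul_self_nonneg _
  have hp' : ∀ f : Asm.tst C, 0 ≤ en f f := fun f => en_nonneg P K f.2
  have hLe : ∀ f h : Asm.tst C, ip (L f) h = -en f h := by
    intro f h
    rw [hip, hen, hL]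
    exact h5.ibp C P K f h f.2 h.2
  have hD : ∀ μ : ℝ, 0 < μ → Vale.Agent.P284.H894.V.Abs.D ip L μ := by
    intro μ hμ
    obtain ⟨l₀, hl₀, h⟩ := h7 n Γ C P K
    refine Vale.Agent.P284.H894.V.Abs.D_step hs hp hp' hLe hμ (le_max_left μ l₀)
      (Vale.Agent.P284.H894.V.Abs.D_of fun f δ hδ => ?_)
    obtain ⟨v, hv, hlt⟩ := h _ (le_max_right μ l₀) f f.2 δ hδ
    refine ⟨⟨v, hv⟩, ?_⟩
    rw [hsq]
    exact hlt
  set L₀ : Asm.tst C := ⟨h, hh⟩ with hL₀
  obtain ⟨B, hB0, hB⟩ := poincare P K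
  have hone : ∀ m : ℝ, ip L₀ ⟨cst C m, isTst_cst C m⟩ = 0 := by
    intro m
    have e1 := h3.lin C P K h h m 0 (fam_of hh.smooth hh.compat) (fam_of hh.smooth hh.compat)
    rw [h0, mul_zero, zero_mul, add_zero] at e1
    rw [← e1, hip]
    refine Asm.Int_congr P K fun γ a z hz => ?_
    show h γ a z * cst C m γ a z = _
    rw [cst_mem m γ (V_sub_Ω C a hz)]
    ring
  have hE : ∀ v : Asm.tst C, 0 ≤ (B + 1) * ip L₀ L₀ - 2 * ip L₀ v + en v v := by
    intro v
    obtain ⟨m, hm⟩ := hB v v.2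
    set w : Asm.tst C := v - ⟨cst C m, isTst_cst C m⟩ with hw
    have e1 : ip L₀ v = ip L₀ w := by rw [hw, map_sub, hone m, sub_zero]
    have e2 : ip w w ≤ B * en v v := by
      refine le_of_eq_of_le ?_ hm
      rw [hsq]
      refine Asm.Int_congr P K fun γ a z hz => ?_
      show ((v : Γ → C.I → Cm n → ℝ) γ a z - cst C m γ a z) ^ 2 = _
      rw [cst_mem m γ (V_sub_Ω C a hz)]
    have e3 := hp ((B + 1) • L₀ - w)
    have e4 : ip ((B + 1) • L₀ - w) ((B + 1) • L₀ - w) =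
        (B + 1) ^ 2 * ip L₀ L₀ - 2 * (B + 1) * ip L₀ w + ip w w := by
      simp only [map_sub, LinearMap.sub_apply, map_smul, LinearMap.smul_apply, smul_eq_mul]
      rw [hs w L₀]; ring
    rw [e4] at e3
    have e5 : (B + 1) * (2 * ip L₀ w) ≤ (B + 1) * ((B + 1) * ip L₀ L₀ + en v v) := by
      have := hp' v
      nlinarith
    have e6 := le_of_mul_le_mul_left e5 (by linarith)
    rw [e1]
    linarith
  obtain ⟨v, -, hv⟩ := abs_approx hs hp hp' hLe hD L₀ hE hε
  refine ⟨((-v : Asm.tst C) : Γ → C.I → Cm n → ℝ), (-v).2, ?_⟩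
  have e7 : L₀ + L v = L₀ - L (-v) := by rw [map_neg, sub_neg_eq_add]
  rw [e7, hsq] at hv
  exact hv

end Vale.Agent.P281.H125.TS
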