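import Vale.Agent.P281.H125.TS.Wdg
import Vale.Agent.P281.H125.TS.Loc

/-!
# P281, project T-S, block C1 (helper125): Stokes' theorem for 2-forms
-/

open Set Filter Metric MeasureTheory
open scoped Topology ContDiff ComplexConjugate ENNReal

noncomputable section

namespace Vale.Agent.P281.H125.TS

open Vale.Agent.P281.H64 (Cm)
open Vale.Agent.P281.H64.TK Vale.Agent.P281.H303.K

section loc
variable {d : ℕ}

/-- exterior derivative of a 1-form -/
def dx1 (β : Cm d → (Cm d →L[ℝ] ℂ)) (z : Cm d) : Cm d →L[ℝ] Cm d →L[ℝ] ℂ :=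
  fderiv ℝ β z - (fderiv ℝ β z).flip

theorem dx1_apply (β : Cm d → (Cm d →L[ℝ] ℂ)) (z u v : Cm d) :
    dx1 β z u v = fderiv ℝ β z u v - fderiv ℝ β z v u := rfl

theorem dx1_self (β : Cm d → (Cm d →L[ℝ] ℂ)) (z v : Cm d) : dx1 β z v v = 0 := by
  rw [dx1_apply, sub_self]

theorem dx1_congr {β β' : Cm d → (Cm d →L[ℝ] ℂ)} {z : Cm d} (h : β =ᶠ[𝓝 z] β') :
    dx1 β z = dx1 β' z := by
  unfold dx1
  rw [h.fderiv_eq]

/-- the exterior derivative of a 2-form vanishes at `z` -/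
def Cl2 (α : Cm d → (Cm d →L[ℝ] Cm d →L[ℝ] ℂ)) (z : Cm d) : Prop :=
  ∀ a b c, fderiv ℝ (fun y => α y b c) z a - fderiv ℝ (fun y => α y a c) z b +
    fderiv ℝ (fun y => α y a b) z c = 0

/-- pull back and exterior derivative commute -/
theorem dx1_pull {β : Cm d → (Cm d →L[ℝ] ℂ)} {θ : Cm d → Cm d} {z w : Cm d}
    (hθ : ContDiffAt ℝ ∞ θ z) (hw : θ z = w) (hβ : DifferentiableAt ℝ β w) :
    dx1 (fun u => (β (θ u)).comp (fderiv ℝ θ u)) z = pull (fderiv ℝ θ z) (dx1 β w) := by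
  have h1 : HasFDerivAt θ (fderiv ℝ θ z) z := (hθ.differentiableAt (by simp)).hasFDerivAt
  have h2 : HasFDerivAt (fun u => β (θ u)) ((fderiv ℝ β w).comp (fderiv ℝ θ z)) z := by
    rw [← hw] at hβ ⊢
    exact hβ.hasFDerivAt.comp z h1
  have h3 : HasFDerivAt (fderiv ℝ θ) (fderiv ℝ (fderiv ℝ θ) z) z :=
    ((hθ.fderiv_right (m := ∞) (by simp)).differentiableAt (by simp)).hasFDerivAt
  have h4 := h2.clm_comp h3
  have hs : IsSymmSndFDerivAt ℝ θ z := by
    apply ContDiffAt.isSymmSndFDerivAt (n := ∞) hθ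
    simp only [minSmoothness_of_isRCLikeNormedField]
    exact WithTop.coe_le_coe.2 le_top
  ext u v
  rw [dx1_apply, h4.fderiv, pull_apply, dx1_apply]
  simp only [add_apply, ContinuousLinearMap.comp_apply, ContinuousLinearMap.compL_apply,
    ContinuousLinearMap.flip_apply, hw]
  rw [hs u v]
  ring

end loc

/-- **Local Stokes theorem.** -/
theorem stokes_loc {b : Cm 2 → (Cm 2 →L[ℝ] ℂ)} {a : Cm 2 → (Cm 2 →L[ℝ] Cm 2 →L[ℝ] ℂ)}
    (hb : ContDiffOn ℝ ∞ b (ball 0 3)) (ha : ContDiffOn ℝ ∞ a (ball 0 3))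
    (hcl : ∀ z ∈ ball (0 : Cm 2) 3, Cl2 a z)
    (h0 : ∀ z ∈ ball (0 : Cm 2) 3, z ∉ closedBall (0 : Cm 2) 2 → b z = 0) (v : Fin 4 → Cm 2) :
    ∫ z in ball (0 : Cm 2) 3, wdg (dx1 b z) (a z) v = 0 := by
  have sb : ∀ x, ContDiffOn ℝ ∞ (fun z => b z x) (ball 0 3) := fun x =>
    hb.clm_apply contDiffOn_const
  have sa : ∀ x y, ContDiffOn ℝ ∞ (fun z => a z x y) (ball 0 3) := fun x y =>
    (ha.clm_apply contDiffOn_const).clm_apply contDiffOn_const
  set B : Fin 4 → Cm 2 → ℂ := fun k z => b z (v k) with hB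
  set A : Fin 4 → Fin 4 → Cm 2 → ℂ := fun k l z => a z (v k) (v l) with hA
  -- the 3-form
  set X : Fin 4 → Fin 4 → Fin 4 → Cm 2 → ℂ := fun k l m z =>
    B k z * A l m z - B l z * A k m z + B m z * A k l z with hX
  have sX : ∀ k l m, ContDiffOn ℝ ∞ (X k l m) (ball 0 3) := fun k l m =>
    (((sb _).mul (sa _ _)).sub ((sb _).mul (sa _ _))).add ((sb _).mul (sa _ _))
  have zX : ∀ k l m, ∀ z ∈ ball (0 : Cm 2) 3, z ∉ closedBall (0 : Cm 2) 2 → X k l m z = 0 := by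
    intro k l m z hz hz'
    simp only [hX, hB, h0 z hz hz', zero_apply, zero_mul, sub_zero, add_zero]
  have key : ∀ z ∈ ball (0 : Cm 2) 3, wdg (dx1 b z) (a z) v =
      fderiv ℝ (X 1 2 3) z (v 0) - fderiv ℝ (X 0 2 3) z (v 1) + fderiv ℝ (X 0 1 3) z (v 2) -
        fderiv ℝ (X 0 1 2) z (v 3) := by
    intro z hz
    have db : DifferentiableAt ℝ b z :=
      (hb.contDiffAt (isOpen_ball.mem_nhds hz)).differentiableAt (by simp)
    have dB : ∀ k, HasFDerivAt (B k) (fderiv ℝ (B k) z) z := fun k =>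
      (((sb (v k)).contDiffAt (isOpen_ball.mem_nhds hz)).differentiableAt (by simp)).hasFDerivAt
    have dA : ∀ k l, HasFDerivAt (A k l) (fderiv ℝ (A k l) z) z := fun k l =>
      (((sa (v k) (v l)).contDiffAt (isOpen_ball.mem_nhds hz)).differentiableAt
        (by simp)).hasFDerivAt
    have dX : ∀ k l m u, fderiv ℝ (X k l m) z u =
        (B k z * fderiv ℝ (A l m) z u + fderiv ℝ (B k) z u * A l m z) -
        (B l z * fderiv ℝ (A k m) z u + fderiv ℝ (B l) z u * A k m z) +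
        (B m z * fderiv ℝ (A k l) z u + fderiv ℝ (B m) z u * A k l z) := by
      intro k l m u
      have h1 := ((((dB k).mul (dA l m)).sub ((dB l).mul (dA k m))).add
        ((dB m).mul (dA k l))).fderiv
      have h2 : X k l m = B k * A l m - B l * A k m + B m * A k l := rfl
      rw [h2, h1]
      simp only [add_apply, sub_apply, smul_apply, smul_eq_mul]
      ring
    have eB : ∀ k u, fderiv ℝ (B k) z u = fderiv ℝ b z u (v k) := by
      intro k u
      have := (db.hasFDerivAt.clm_apply (hasFDerivAt_const (v k) z)).fderiv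
      have h2 : B k = fun y => b y (v k) := rfl
      rw [h2, this]
      simp
    have c0 := hcl z hz (v 1) (v 2) (v 3)
    have c1 := hcl z hz (v 0) (v 2) (v 3)
    have c2 := hcl z hz (v 0) (v 1) (v 3)
    have c3 := hcl z hz (v 0) (v 1) (v 2)
    change fderiv ℝ (A 2 3) z (v 1) - fderiv ℝ (A 1 3) z (v 2) + fderiv ℝ (A 1 2) z (v 3) = 0
      at c0
    change fderiv ℝ (A 2 3) z (v 0) - fderiv ℝ (A 0 3) z (v 2) + fderiv ℝ (A 0 2) z (v 3) = 0
      at c1
    change fderiv ℝ (A 1 3) z (v 0) - fderiv ℝ (A 0 3) z (v 1) + fderiv ℝ (A 0 1) z (v 3) = 0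
      at c2
    change fderiv ℝ (A 1 2) z (v 0) - fderiv ℝ (A 0 2) z (v 1) + fderiv ℝ (A 0 1) z (v 2) = 0
      at c3
    simp only [dX, eB, wdg, dx1_apply]
    change _ * A 2 3 z - _ * A 1 3 z + _ * A 1 2 z + _ * A 0 3 z - _ * A 0 2 z + _ * A 0 1 z = _
    linear_combination (B 0 z) * c0 - (B 1 z) * c1 + (B 2 z) * c2 - (B 3 z) * c3
  rw [setIntegral_congr_fun isOpen_ball.measurableSet key]
  have i0 := int_fderiv_ball (sX 1 2 3) (zX 1 2 3) (v 0)
  have i1 := int_fderiv_ball (sX 0 2 3) (zX 0 2 3) (v 1)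
  have i2 := int_fderiv_ball (sX 0 1 3) (zX 0 1 3) (v 2)
  have i3 := int_fderiv_ball (sX 0 1 2) (zX 0 1 2) (v 3)
  have j1 : IntegrableOn (fun z => fderiv ℝ (X 1 2 3) z (v 0) - fderiv ℝ (X 0 2 3) z (v 1))
    (ball 0 3) := i0.1.sub i1.1
  have j2 : IntegrableOn (fun z => fderiv ℝ (X 1 2 3) z (v 0) - fderiv ℝ (X 0 2 3) z (v 1) +
    fderiv ℝ (X 0 1 3) z (v 2)) (ball 0 3) := j1.add i2.1
  rw [integral_sub j2 i3.1, integral_add j1 i2.1, integral_sub i0.1 i1.1, i0.2, i1.2, i2.2, i3.2]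
  ring

section glob
variable {d : ℕ} {E Γ : Type} [TopologicalSpace E] [Group Γ] [MulAction Γ E]

/-- a smooth complex 1-form on `E / Γ` -/
structure F1 (S : Sheets d E Γ) (β : Fin S.N → Cm d → (Cm d →L[ℝ] ℂ)) : Prop where
  smooth : ∀ i, ContDiffOn ℝ ∞ (β i) (ball 0 3)
  change : ∀ i j, ∀ z ∈ ball (0 : Cm d) 3, ∀ w ∈ ball (0 : Cm d) 3, ∀ (γ : Γ) (θ : Cm d → Cm d),
    AnalyticAt ℂ θ z → θ z = w → (∀ᶠ u in 𝓝 z, S.σ i u = γ • S.σ j (θ u)) →
      β i z = (β j w).comp (fderiv ℝ θ z)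

/-- a smooth complex 2-form on `E / Γ` -/
structure F2 (S : Sheets d E Γ) (α : Fin S.N → Cm d → (Cm d →L[ℝ] Cm d →L[ℝ] ℂ)) : Prop where
  smooth : ∀ i, ContDiffOn ℝ ∞ (α i) (ball 0 3)
  alt : ∀ i, ∀ z ∈ ball (0 : Cm d) 3, ∀ v, α i z v v = 0
  change : ∀ i j, ∀ z ∈ ball (0 : Cm d) 3, ∀ w ∈ ball (0 : Cm d) 3, ∀ (γ : Γ) (θ : Cm d → Cm d),
    AnalyticAt ℂ θ z → θ z = w → (∀ᶠ u in 𝓝 z, S.σ i u = γ • S.σ j (θ u)) →
      α i z = pull (fderiv ℝ θ z) (α j w)

/-- a closed 2-form -/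
def IsCl (S : Sheets d E Γ) (α : Fin S.N → Cm d → (Cm d →L[ℝ] Cm d →L[ℝ] ℂ)) : Prop :=
  ∀ i, ∀ z ∈ ball (0 : Cm d) 3, Cl2 (α i) z

theorem smooth_dx1 {β : Cm d → (Cm d →L[ℝ] ℂ)} (h : ContDiffOn ℝ ∞ β (ball 0 3)) :
    ContDiffOn ℝ ∞ (dx1 β) (ball 0 3) := by
  have h1 : ContDiffOn ℝ ∞ (fderiv ℝ β) (ball 0 3) :=
    h.fderiv_of_isOpen isOpen_ball (by simp)
  have h2 : ∀ u w, ContDiffOn ℝ ∞ (fun z => fderiv ℝ β z u w) (ball 0 3) := fun u w =>
    (h1.clm_apply contDiffOn_const).clm_apply contDiffOn_const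
  exact contDiffOn_clm_apply.2 fun u => contDiffOn_clm_apply.2 fun w =>
    (h2 u w).sub (h2 w u)

theorem F1.dx {S : Sheets d E Γ} {β : Fin S.N → Cm d → (Cm d →L[ℝ] ℂ)} (h : F1 S β) :
    F2 S (fun i => dx1 (β i)) where
  smooth i := smooth_dx1 (h.smooth i)
  alt i z _ v := dx1_self _ _ _
  change i j z hz w hw γ θ h1 h2 h3 := by
    have hs : ContDiffAt ℝ ∞ θ z := (h1.contDiffAt.restrict_scalars ℝ).of_le le_top
    have e1 : β i =ᶠ[𝓝 z] fun u => (β j (θ u)).comp (fderiv ℝ θ u) := by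
      have c1 : ∀ᶠ u in 𝓝 z, θ u ∈ ball (0 : Cm d) 3 :=
        h1.continuousAt.eventually (isOpen_ball.mem_nhds (by rwa [h2]))
      filter_upwards [isOpen_ball.mem_nhds hz, h1.eventually_analyticAt,
        h3.eventually_nhds, c1] with u u1 u2 u3 u4
      exact h.change i j u u1 _ u4 γ θ u2 rfl u3
    rw [dx1_congr e1]
    exact dx1_pull hs h2 (((h.smooth j).contDiffAt (isOpen_ball.mem_nhds hw)).differentiableAt
      (by simp))

theorem isTop_wdg {S : Sheets 2 E Γ} {α β : Fin S.N → Cm 2 → (Cm 2 →L[ℝ] Cm 2 →L[ℝ] ℂ)}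
    (hα : F2 S α) (hβ : F2 S β) (v : Fin 4 → Cm 2) : IsTop S fun i z => wdg (α i z) (β i z) v := by
  intro i j z hz w hw γ θ h1 h2 h3
  show wdg (α i z) (β i z) v = _
  rw [hα.change i j z hz w hw γ θ h1 h2 h3, hβ.change i j z hz w hw γ θ h1 h2 h3]
  exact wdg_pull _ (hα.alt j w hw) (hβ.alt j w hw) v

theorem cont_wdg {S : Sheets 2 E Γ} {α β : Fin S.N → Cm 2 → (Cm 2 →L[ℝ] Cm 2 →L[ℝ] ℂ)}
    (hα : F2 S α) (hβ : F2 S β) (v : Fin 4 → Cm 2) (i : Fin S.N) :
    ContinuousOn (fun z => wdg (α i z) (β i z) v) (ball 0 3) := by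
  have sa : ∀ x y, ContinuousOn (fun z => α i z x y) (ball 0 3) := fun x y =>
    (((hα.smooth i).continuousOn).clm_apply continuousOn_const).clm_apply continuousOn_const
  have sb : ∀ x y, ContinuousOn (fun z => β i z x y) (ball 0 3) := fun x y =>
    (((hβ.smooth i).continuousOn).clm_apply continuousOn_const).clm_apply continuousOn_const
  unfold wdg
  exact (((((sa _ _).mul (sb _ _)).sub ((sa _ _).mul (sb _ _))).add ((sa _ _).mul (sb _ _))).add
    ((sa _ _).mul (sb _ _))).sub ((sa _ _).mul (sb _ _)) |>.add ((sa _ _).mul (sb _ _))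

theorem wdg_sum {ι V : Type} [NormedAddCommGroup V] [NormedSpace ℝ V] (s : Finset ι)
    (α : ι → (V →L[ℝ] V →L[ℝ] ℂ)) (β : V →L[ℝ] V →L[ℝ] ℂ) (v : Fin 4 → V) :
    wdg (∑ k ∈ s, α k) β v = ∑ k ∈ s, wdg (α k) β v := by
  simp only [wdg, ContinuousLinearMap.sum_apply, Finset.sum_mul, ← Finset.sum_sub_distrib,
    ← Finset.sum_add_distrib]

theorem wdg_zero {V : Type} [NormedAddCommGroup V] [NormedSpace ℝ V]
    (β : V →L[ℝ] V →L[ℝ] ℂ) (v : Fin 4 → V) : wdg 0 β v = 0 := by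
  simp [wdg]

/-- a 1-form times a function of the partition of unity -/
def cut (S : Sheets d E Γ) (β : Fin S.N → Cm d → (Cm d →L[ℝ] ℂ)) (k i : Fin S.N) (z : Cm d) :
    Cm d →L[ℝ] ℂ := chi S k (S.σ i z) • β i z

variable [ContinuousConstSMul Γ E]

theorem f1_cut {S : Sheets d E Γ} {β : Fin S.N → Cm d → (Cm d →L[ℝ] ℂ)} (h : F1 S β)
    (k : Fin S.N) : F1 S (cut S β k) where
  smooth i := ((chi_smooth S k).self i).smul (h.smooth i)
  change i j z hz w hw γ θ h1 h2 h3 := by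
    have he : S.σ i z = γ • S.σ j w := by
      have := h3.self_of_nhds
      rwa [h2] at this
    unfold cut
    rw [he, chi_smul, h.change i j z hz w hw γ θ h1 h2 h3]
    rfl

theorem sum_cut (S : Sheets d E Γ) (β : Fin S.N → Cm d → (Cm d →L[ℝ] ℂ)) (i : Fin S.N)
    (z : Cm d) : ∑ k, cut S β k i z = β i z := by
  unfold cut
  rw [← Finset.sum_smul, chi_sum, one_smul]

theorem cut_zero {S : Sheets d E Γ} (β : Fin S.N → Cm d → (Cm d →L[ℝ] ℂ)) {k i : Fin S.N}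
    {z : Cm d} (h : S.σ i z ∉ V S k (closedBall 0 2)) : cut S β k i z = 0 := by
  unfold cut
  rw [chi_zero S k h]
  exact zero_smul ℝ (β i z)

/-- **C1: Stokes' theorem on `E / Γ`, in complex dimension 2.** -/
theorem stokes (S : Sheets 2 E Γ) {β : Fin S.N → Cm 2 → (Cm 2 →L[ℝ] ℂ)}
    {α : Fin S.N → Cm 2 → (Cm 2 →L[ℝ] Cm 2 →L[ℝ] ℂ)} (hβ : F1 S β) (hα : F2 S α)
    (hcl : IsCl S α) (v : Fin 4 → Cm 2) :
    S.int (fun i z => wdg (dx1 (β i) z) (α i z) v) = 0 := by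
  have e1 : ∀ i, ∀ z ∈ ball (0 : Cm 2) 3, dx1 (β i) z = ∑ k, dx1 (cut S β k i) z := by
    intro i z hz
    have hd : ∀ k, DifferentiableAt ℝ (cut S β k i) z := fun k =>
      (((f1_cut hβ k).smooth i).contDiffAt (isOpen_ball.mem_nhds hz)).differentiableAt (by simp)
    have h1 : β i = fun z => ∑ k, cut S β k i z := funext fun z => (sum_cut S β i z).symm
    have h2 : fderiv ℝ (β i) z = ∑ k, fderiv ℝ (cut S β k i) z := by
      conv_lhs => rw [h1]
      exact fderiv_fun_sum fun k _ => hd k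
    ext u w
    rw [dx1_apply, h2]
    simp only [ContinuousLinearMap.sum_apply, dx1_apply, Finset.sum_sub_distrib]
  have e2 : ∀ k, ∑ j, ∫ z in S.P j, wdg (dx1 (cut S β k j) z) (α j z) v = 0 := by
    intro k
    have hk := f1_cut hβ k
    rw [int_sheet S (isTop_wdg hk.dx hα v) (fun i => cont_wdg hk.dx hα v i) k]
    · refine stokes_loc (hk.smooth k) (hα.smooth k) (hcl k) (fun z hz hz2 => ?_) v
      have h3 : S.σ k z ∉ V S k (closedBall 0 2) := by
        intro h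
        rw [co_mem (closedBall_subset_ball (by norm_num))] at h
        have h3 : co S k (S.σ k z) = z := co_eq (γ := 1) hz (one_smul _ _)
        rw [h3] at h
        exact hz2 h.2
      exact cut_zero β h3
    · intro j z hz hV
      have h6 : ContinuousAt (S.σ j) z := (S.map_nhds j z hz).le
      have h5 : cut S β k j =ᶠ[𝓝 z] fun _ => 0 := by
        filter_upwards [h6.eventually
          ((isClosed_V (S := S) (i := k) (by norm_num : (2 : ℝ) < 3)).isOpen_compl.mem_nhds hV)]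
          with u hu
        exact cut_zero β hu
      have h7 : dx1 (cut S β k j) z = 0 := by
        rw [dx1_congr h5]
        ext u w
        simp [dx1_apply]
      show wdg (dx1 (cut S β k j) z) (α j z) v = 0
      rw [h7, wdg_zero]
  unfold Sheets.int
  have e3 : ∀ i, ∫ z in S.P i, wdg (dx1 (β i) z) (α i z) v =
      ∑ k, ∫ z in S.P i, wdg (dx1 (cut S β k i) z) (α i z) v := by
    intro i
    rw [← integral_finset_sum]
    · refine setIntegral_congr_fun (meas_P S i) fun z hz => ?_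
      show wdg (dx1 (β i) z) (α i z) v = ∑ k, wdg (dx1 (cut S β k i) z) (α i z) v
      rw [e1 i z (P_subset3 S i hz), wdg_sum]
    · intro k _
      exact integrableOn_P S i (cont_wdg (f1_cut hβ k).dx hα v i)
  rw [Finset.sum_congr rfl fun i _ => e3 i, Finset.sum_comm]
  exact Finset.sum_eq_zero fun k _ => e2 k

end glob

end Vale.Agent.P281.H125.TS
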