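import Vale.Agent.P281.H303.K.J
import Mathlib.LinearAlgebra.Determinant

/-!
# P281, project T-S, block C1 (helper125): the exterior product of two 2-forms in dimension 4
-/

open Set Filter Metric MeasureTheory
open scoped Topology ContDiff ComplexConjugate ENNReal

noncomputable section

namespace Vale.Agent.P281.H125.TS

section alg
variable {V : Type} [NormedAddCommGroup V] [NormedSpace ℝ V]

/-- `α ∧ β` evaluated at four vectors -/
def wdg (α β : V →L[ℝ] V →L[ℝ] ℂ) (v : Fin 4 → V) : ℂ :=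
  α (v 0) (v 1) * β (v 2) (v 3) - α (v 0) (v 2) * β (v 1) (v 3) + α (v 0) (v 3) * β (v 1) (v 2) +
    α (v 1) (v 2) * β (v 0) (v 3) - α (v 1) (v 3) * β (v 0) (v 2) + α (v 2) (v 3) * β (v 0) (v 1)

/-- pull back of a bilinear form -/
def pull (A : V →L[ℝ] V) (α : V →L[ℝ] V →L[ℝ] ℂ) : V →L[ℝ] V →L[ℝ] ℂ := α.bilinearComp A A

@[simp] theorem pull_apply (A : V →L[ℝ] V) (α : V →L[ℝ] V →L[ℝ] ℂ) (u v : V) :
    pull A α u v = α (A u) (A v) := rfl

theorem wdg_pull' (A : V →L[ℝ] V) (α β : V →L[ℝ] V →L[ℝ] ℂ) (v : Fin 4 → V) :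
    wdg (pull A α) (pull A β) v = wdg α β (fun i => A (v i)) := rfl

theorem anti {α : V →L[ℝ] V →L[ℝ] ℂ} (h : ∀ v, α v v = 0) (u v : V) : α u v = -α v u := by
  have h1 := h (u + v)
  simp only [map_add, add_apply, h, zero_add, add_zero] at h1
  linear_combination h1

/-- the exterior product as an alternating map -/
def wdgA (α β : V →L[ℝ] V →L[ℝ] ℂ) (hα : ∀ v, α v v = 0) (hβ : ∀ v, β v v = 0) :
    V [⋀^Fin 4]→ₗ[ℝ] ℂ where
  toFun v := wdg α β v
  map_update_add' := by
    intro inst m i x y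
    have e : inst = instDecidableEqFin 4 := Subsingleton.elim _ _
    subst e
    fin_cases i <;> simp [wdg] <;> ring
  map_update_smul' := by
    intro inst m i c x
    have e : inst = instDecidableEqFin 4 := Subsingleton.elim _ _
    subst e
    fin_cases i <;> simp [wdg] <;> ring
  map_eq_zero_of_eq' := by
    intro v i j h hij
    have aα := anti hα
    have aβ := anti hβ
    have key : ∀ a b c e : V, (a = b ∨ a = c ∨ a = e ∨ b = c ∨ b = e ∨ c = e) →
        α a b * β c e - α a c * β b e + α a e * β b c + α b c * β a e - α b e * β a c +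
          α c e * β a b = 0 := by
      rintro a b c e (rfl | rfl | rfl | rfl | rfl | rfl)
      · rw [hα, hβ]; ring
      · rw [hα, hβ, aα b a, aβ b a]; ring
      · rw [hα, hβ, aα b a, aα c a, aβ b a, aβ c a]; ring
      · rw [hα, hβ]; ring
      · rw [hα, hβ, aα c b, aβ c b]; ring
      · rw [hα, hβ]; ring
    refine key _ _ _ _ ?_
    fin_cases i <;> fin_cases j <;> first
      | exact absurd rfl hij
      | exact Or.inl h
      | exact Or.inl h.symm
      | exact Or.inr (Or.inl h)
      | exact Or.inr (Or.inl h.symm)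
      | exact Or.inr (Or.inr (Or.inl h))
      | exact Or.inr (Or.inr (Or.inl h.symm))
      | exact Or.inr (Or.inr (Or.inr (Or.inl h)))
      | exact Or.inr (Or.inr (Or.inr (Or.inl h.symm)))
      | exact Or.inr (Or.inr (Or.inr (Or.inr (Or.inl h))))
      | exact Or.inr (Or.inr (Or.inr (Or.inr (Or.inl h.symm))))
      | exact Or.inr (Or.inr (Or.inr (Or.inr (Or.inr h))))
      | exact Or.inr (Or.inr (Or.inr (Or.inr (Or.inr h.symm))))

theorem wdgA_apply (α β : V →L[ℝ] V →L[ℝ] ℂ) (hα : ∀ v, α v v = 0) (hβ : ∀ v, β v v = 0)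
    (v : Fin 4 → V) : wdgA α β hα hβ v = wdg α β v := rfl

/-- an alternating map of top degree is multiplied by the determinant -/
theorem alt_det {ι : Type} [Fintype ι] [DecidableEq ι] (e : Module.Basis ι ℝ V)
    (f : V [⋀^ι]→ₗ[ℝ] ℂ) (A : V →ₗ[ℝ] V) (v : ι → V) :
    f (fun i => A (v i)) = (LinearMap.det A : ℝ) • f v := by
  have key : ∀ g : V [⋀^ι]→ₗ[ℝ] ℝ, g (fun i => A (v i)) = LinearMap.det A * g v := by
    intro g
    rw [g.eq_smul_basis_det e]
    simp only [AlternatingMap.smul_apply, smul_eq_mul]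
    have := e.det_comp A v
    simp only [Function.comp_def] at this
    rw [this]
    ring
  have h1 := key (Complex.reLm.compAlternatingMap f)
  have h2 := key (Complex.imLm.compAlternatingMap f)
  simp only [LinearMap.compAlternatingMap_apply, Complex.reLm_coe, Complex.imLm_coe] at h1 h2
  apply Complex.ext
  · rw [Complex.real_smul, Complex.re_ofReal_mul]; exact h1
  · rw [Complex.real_smul, Complex.im_ofReal_mul]; exact h2

end alg

open Vale.Agent.P281.H64 (Cm)
open Vale.Agent.P281.H64.TK Vale.Agent.P281.H303.K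

/-- **The exterior product of two 2-forms of `ℂ^2` is multiplied by the real determinant.** -/
theorem wdg_pull (A : Cm 2 →L[ℝ] Cm 2) {α β : Cm 2 →L[ℝ] Cm 2 →L[ℝ] ℂ} (hα : ∀ v, α v v = 0)
    (hβ : ∀ v, β v v = 0) (v : Fin 4 → Cm 2) :
    wdg (pull A α) (pull A β) v = A.det • wdg α β v := by
  rw [wdg_pull']
  exact alt_det ((rb 2).reindex finSumFinEquiv) (wdgA α β hα hβ) (A : Cm 2 →ₗ[ℝ] Cm 2) v

end Vale.Agent.P281.H125.TS
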